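import Vale.Agent.P300LO.For
import Vale.Agent.P300LR.Step

namespace Vale.Agent.P300LO

/-- The forest block: `FOR` from the local step. -/
theorem for_ : P300LG.FOR := for_of P300LR.step

end Vale.Agent.P300LO
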