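import Vale.Agent.P300LO.Defs
import Vale.Agent.P300LX.Top
import Mathlib.Analysis.Complex.CoveringMap
import Mathlib.Analysis.Complex.Tietze
import Mathlib.Topology.Homotopy.Lifting

/-!
# P300LO: logarithms, gluing of trivialisations
-/

set_option linter.all false

open Set Filter Topology Function unitInterval
open Vale.Agent.P272.K (Cm)
open Vale.Agent.P300LX Vale.Agent.P300LX.Dat Vale.Agent.P300LG

noncomputable section

namespace Vale.Agent.P300LO

section top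

variable {X : Type} [TopologicalSpace X] {Y : Set X} {g : X → ℂ}

theorem ext_on (G : C(Y, ℂ)) : ∃ L : X → ℂ, ContinuousOn L Y ∧ ∀ y : Y, L y = G y := by
  classical
  have e : ∀ y : Y, (if h : y.1 ∈ Y then G ⟨y.1, h⟩ else 0) = G y := fun y => dif_pos y.2
  exact ⟨fun x => if h : x ∈ Y then G ⟨x, h⟩ else 0, continuousOn_iff_continuous_restrict.2
    (G.continuous.congr fun y => (e y).symm), e⟩

/-- logarithms on a set which contracts to a finite set -/
theorem log_of [T1Space X] {F : Set X} (hF : F.Finite) {H : I × Y → X} (c : Continuous H)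
    (m : ∀ p, H p ∈ Y) (h0 : ∀ y, H (0, y) ∈ F) (h1 : ∀ y, H (1, y) = y) (hg : ContinuousOn g Y)
    (ne : ∀ y ∈ Y, g y ≠ 0) : ∃ L, ContinuousOn L Y ∧ ∀ y ∈ Y, Complex.exp (L y) = g y := by
  let G : C(I × Y, {z : ℂ // z ≠ 0}) :=
    ⟨fun p => ⟨g (H p), ne _ (m p)⟩, (hg.comp_continuous c m).subtype_mk _⟩
  let l : C(Y, ℂ) := ⟨fun y => Complex.log (g (H (0, y))),
    (hF.continuousOn fun x => Complex.log (g x)).comp_continuous (by fun_prop) h0⟩
  have e : ∀ y, G (0, y) = ⟨_, (l y).exp_ne_zero⟩ := fun y =>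
    Subtype.ext (Complex.exp_log (ne _ (m _))).symm
  obtain ⟨L, a, b⟩ := ext_on ((Complex.isCoveringMap_exp.liftHomotopy G l e).comp
    ⟨fun y => (1, y), by fun_prop⟩)
  refine ⟨L, a, fun y hy => ?_⟩
  rw [b ⟨y, hy⟩]
  exact (congrArg Subtype.val (congrFun (Complex.isCoveringMap_exp.liftHomotopy_lifts G l e)
    (1, ⟨y, hy⟩))).trans (congrArg g (h1 _))

/-- Tietze on a compact set -/
theorem tz [T2Space X] {K : Set X} (hK : IsCompact K) (hY : IsClosed Y) (hg : ContinuousOn g (K ∩ Y)) :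
    ∃ G, ContinuousOn G K ∧ ∀ y ∈ K ∩ Y, G y = g y := by
  haveI := isCompact_iff_compactSpace.1 hK
  have c : Continuous fun y : (Subtype.val ⁻¹' Y : Set K) => g y.1.1 := hg.comp_continuous
    (continuous_subtype_val.comp continuous_subtype_val) fun y => ⟨y.1.2, y.2⟩
  obtain ⟨G, e⟩ := ContinuousMap.exists_restrict_eq (hY.preimage continuous_subtype_val) ⟨_, c⟩
  obtain ⟨L, a, b⟩ := ext_on G
  exact ⟨L, a, fun y h => (b ⟨y, h.1⟩).trans (DFunLike.congr_fun e ⟨⟨y, h.1⟩, h.2⟩)⟩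

theorem cont_union {P Q O : Set X} (hP : IsClosed P) (hQ : IsClosed Q)
    (a : ContinuousOn g (P ∩ O)) (b : ContinuousOn g (Q ∩ O)) : ContinuousOn g ((P ∪ Q) ∩ O) :=
  fun y h => by
    have k : ∀ {P : Set X}, IsClosed P → ContinuousOn g (P ∩ O) → ContinuousWithinAt g (P ∩ O) y :=
      fun {P} c a => (em (y ∈ P)).elim (fun e => a y ⟨e, h.2⟩) fun e =>
        continuousWithinAt_of_notMem_closure fun z => e (closure_minimal inter_subset_left c z)
    rw [union_inter_distrib_right]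
    exact (k hP a).union (k hQ b)

end top

/-- the segment from `z₀` to `z` -/
def sgm (z₀ : Cm 2) (s : ℝ) (z : Cm 2) : Cm 2 := z₀ + s • (z - z₀)

theorem sgm_mem {W : Set (Cm 2)} (hW : Convex ℝ W) {z₀ z : Cm 2} (a : z₀ ∈ W) (b : z ∈ W) {s : ℝ}
    (c : s ∈ Icc (0 : ℝ) 1) : sgm z₀ s z ∈ W := hW.add_smul_sub_mem a b c

theorem ev_sgm (a : Af) (z₀ z : Cm 2) (s : ℝ) :
    ev a (sgm z₀ s z) = (1 - s) * ev a z₀ + s * ev a z := by
  rw [sgm, ← Complex.coe_smul]
  simp only [ev, map_add, map_smul, map_sub, smul_eq_mul]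
  ring

@[fun_prop] theorem cont_ev (a : Af) : Continuous (ev a) := continuous_const.add a.2.continuous

@[fun_prop] theorem cont_nq : Continuous nq := by unfold nq; fun_prop

/-- square roots on convex sets -/
theorem ex_sqrt {W : Set (Cm 2)} (hW : Convex ℝ W) {g : Cm 2 → ℂ} (hg : ContinuousOn g W)
    (ne : ∀ z ∈ W, g z ≠ 0) : ∃ V, ContinuousOn V W ∧ ∀ z ∈ W, V z ≠ 0 ∧ V z ^ 2 = g z := by
  rcases W.eq_empty_or_nonempty with rfl | ⟨z₀, h⟩
  · exact ⟨0, continuousOn_empty _, fun _ h => h.elim⟩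
  obtain ⟨L, a, b⟩ := log_of (finite_singleton z₀) (H := fun p : I × W => sgm z₀ p.1 p.2)
    (by unfold sgm; fun_prop) (fun p => sgm_mem hW h p.2.2 p.1.2) (fun y => by simp [sgm])
    (fun y => by simp [sgm]) hg ne
  exact ⟨fun z => Complex.exp (L z / 2), (a.div_const 2).cexp, fun z hz =>
    ⟨Complex.exp_ne_zero _, by rw [sq, ← Complex.exp_add, add_halves, b z hz]⟩⟩

variable {D : Dat} (A : Arr D) {W : Set (Cm 2)}

theorem mem_Om {z : Cm 2} : z ∈ D.Om ↔ nq z < A.ε := by rw [A.om]; rfl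

theorem ex_Bl (hK : IsCompact W) (h : W ⊆ D.Om) : ∃ r < A.ε, W ⊆ Bl r := by
  rcases W.eq_empty_or_nonempty with rfl | e
  · exact ⟨A.ε - 1, sub_one_lt _, empty_subset _⟩
  obtain ⟨z, a, b⟩ := hK.exists_isMaxOn e cont_nq.continuousOn
  exact ⟨nq z, (mem_Om A).1 (h a), b⟩

theorem lf_line : LocallyFinite fun L => {y : D.Xh | ev (A.fm L) (π y) = 0} := fun y => by
  obtain ⟨r, a, b⟩ := exists_between ((mem_Om A).1 (π_mem y))
  exact ⟨{y | nq (π y) < r}, (isOpen_lt (by fun_prop) continuous_const).mem_nhds a,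
    (A.fin r b).subset fun L ⟨z, c, d⟩ => ⟨π z, LT.lt.le (a := nq (π z)) d, c⟩⟩

theorem h_ne {α : A.κ} {z : Cm 2} (hz : z ∈ D.Om) (e : ev (A.fm (.inr α)) z = 0) : D.h z ≠ 0 := by
  obtain ⟨T, U, -, a, -⟩ := A.fac _ ((mem_Om A).1 hz)
  obtain ⟨b, c⟩ := a z (le_refl (nq z))
  exact c ▸ mul_ne_zero b (Finset.prod_ne_zero_iff.2 fun i _ => A.dis α _ (by simp) z hz e)

theorem closed_sheet (α : A.κ) (c : ℂ) :
    IsClosed {y : D.Xh | ev (A.fm (.inr α)) (π y) = 0 ∧ w y = c * A.sd α (π y)} :=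
  (isClosed_eq (by fun_prop) continuous_const).isClosed_eq cont_w.continuousOn
    (continuousOn_const.mul ((A.sd_cont α).comp cont_π.continuousOn fun y h => ⟨π_mem y, h⟩))

theorem closed_D1 : IsClosed (⋃ β, A.D1 β) :=
  (((lf_line A).comp_injective Sum.inr_injective).subset fun _ _ h => h.1).isClosed_iUnion
    fun β => by simpa only [one_mul, Arr.D1] using closed_sheet A β 1

theorem eq_line {α β : A.κ} {z : Cm 2} (hz : z ∈ D.Om) (a : ev (A.fm (.inr α)) z = 0)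
    (b : ev (A.fm (.inr β)) z = 0) : β = α :=
  by_contra fun e => A.dis α _ (fun f => e (Sum.inr_injective f)) z hz a b

theorem D1_O {α : A.κ} : A.D1 α ⊆ A.O α := fun y h β e => ⟨eq_line A (π_mem y) h.1 e, h.2⟩

theorem open_O (α : A.κ) : IsOpen (A.O α) := by
  have := (((lf_line A).comp_injective Sum.inr_injective).subset (g := fun β =>
    {y | ev (A.fm (.inr β)) (π y) = 0 ∧ ¬(β = α ∧ w y = A.sd α (π y))})
    fun _ _ h => h.1).isClosed_iUnion fun β => by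
      by_cases e : β = α
      · subst e
        refine (congrArg IsClosed (Set.ext fun y => and_congr_right fun a => ?_)).mp
          (closed_sheet A β (-1))
        have s := A.sd_sq β _ (π_mem y) a
        have n : A.sd β (π y) ≠ 0 := fun z => h_ne A (π_mem y) a (by rw [← s, z]; simp)
        rw [neg_one_mul, eq_self, true_and]
        exact ⟨fun b c => n (self_eq_neg.1 (c.symm.trans b)), fun b =>
          (sq_eq_sq_iff_eq_or_eq_neg.1 ((w_sq y).trans s.symm)).resolve_left b⟩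
      · simp only [e, false_and, not_false_iff, and_true]
        exact isClosed_eq (by fun_prop) continuous_const
  refine (congrArg IsOpen (Set.ext fun y => ?_)).mp this.isOpen_compl
  simp only [Arr.O, mem_compl_iff, mem_iUnion, mem_setOf_eq, not_exists, not_and_not_right]

variable {A}

theorem Tv.mono {W' : Set (Cm 2)} (h : Tv A W) (e : W' ⊆ W) : Tv A W' :=
  let ⟨f, u, t⟩ := h
  ⟨f, u, t.cont.mono (preimage_mono e), fun y a => t.ne y (e a),
    fun α => (t.ucont α).mono (inter_subset_inter_left _ (preimage_mono e)),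
    fun α y a => t.une α y (e a), fun α y a => t.eq α y (e a)⟩

theorem tv_empty : Tv A ∅ :=
  ⟨0, 0, continuousOn_const, fun _ h => h.elim, fun _ => continuousOn_const, fun _ _ h => h.elim,
    fun _ _ h => h.elim⟩

/-- the quotient of two trivialisations -/
theorem ex_quot {f f' : D.Xh → ℂ} {u u' : A.κ → D.Xh → ℂ} {W' : Set (Cm 2)} (t : A.Triv W f u)
    (t' : A.Triv W' f' u') : ∃ q : D.Xh → ℂ, ContinuousOn q (π ⁻¹' (W ∩ W')) ∧
      ∀ y, π y ∈ W ∩ W' → q y ≠ 0 ∧ f y = f' y * q y ∧ ∀ α, y ∈ A.O α → u α y = u' α y * q y := by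
  classical
  let q : D.Xh → ℂ := fun y => if h : ∃ β, y ∈ A.D1 β then u h.choose y / u' h.choose y else
    f y / f' y
  have q1 : ∀ y, y ∉ ⋃ β, A.D1 β → q y = f y / f' y := fun y h => dif_neg (mt mem_iUnion.2 h)
  have q2 : ∀ α y, π y ∈ W ∩ W' → y ∈ A.O α → q y = u α y / u' α y := fun α y a b => by
    by_cases h : ∃ β, y ∈ A.D1 β
    · rw [← (b _ h.choose_spec.1).1]
      exact dif_pos h
    · rw [q1 y (mt mem_iUnion.1 h), t.eq α y a.1 b, t'.eq α y a.2 b, mul_div_mul_right]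
      exact fun e => h ⟨α, e, (b α e).2⟩
  have m1 : π ⁻¹' (W ∩ W') ⊆ (π ⁻¹' W : Set D.Xh) := preimage_mono inter_subset_left
  have m2 : π ⁻¹' (W ∩ W') ⊆ (π ⁻¹' W' : Set D.Xh) := preimage_mono inter_subset_right
  have q3 : ∀ α y, π y ∈ W ∩ W' → y ∈ A.O α → u α y = u' α y * q y := fun α y a b => by
    rw [q2 α y a b, mul_div_cancel₀ _ (t'.une α y a.2 b)]
  refine ⟨q, fun y a => ?_, fun y a => ?_⟩
  · by_cases h : y ∈ ⋃ β, A.D1 β
    · obtain ⟨α, b⟩ := mem_iUnion.1 h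
      have o := D1_O A b
      refine (continuousWithinAt_inter ((open_O A α).mem_nhds o)).1 ((((t.ucont α y
        ⟨a.1, o⟩).mono (inter_subset_inter_left _ m1)).div ((t'.ucont α y ⟨a.2, o⟩).mono
        (inter_subset_inter_left _ m2)) (t'.une α y a.2 o)).congr
        (fun z c => q2 α z c.1 c.2) (q2 α y a o))
    · exact (continuousWithinAt_inter ((closed_D1 A).isOpen_compl.mem_nhds h)).1 (((((t.cont y
        a.1).mono m1).div ((t'.cont y a.2).mono m2) (t'.ne y a.2 fun β c => h (mem_iUnion.2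
        ⟨β, c⟩))).mono inter_subset_left).congr (fun z c => q1 z c.2) (q1 y h))
  by_cases h : y ∈ ⋃ β, A.D1 β
  · obtain ⟨α, b⟩ := mem_iUnion.1 h
    have o := D1_O A b
    exact ⟨q2 α y a o ▸ div_ne_zero (t.une α y a.1 o) (t'.une α y a.2 o), by
      rw [t.eq α y a.1 o, t'.eq α y a.2 o, b.1, mul_zero, mul_zero, zero_mul], fun β => q3 β y a⟩
  · have n : ∀ β, y ∉ A.D1 β := fun β c => h (mem_iUnion.2 ⟨β, c⟩)
    exact ⟨q1 y h ▸ div_ne_zero (t.ne y a.1 n) (t'.ne y a.2 n), by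
      rw [q1 y h, mul_div_cancel₀ _ (t'.ne y a.2 n)], fun β => q3 β y a⟩

/-- the normal form of `h` over a convex set which meets at most one line -/
theorem ex_nf (hK : IsCompact W) (h : W ⊆ D.Om) (hW : Convex ℝ W) (ne : W.Nonempty)
    (one : ∀ L L', A.Meets L W → A.Meets L' W → L = L') : ∃ (V : Cm 2 → ℂ) (a : Af) (c : ℝ → ℝ),
      ∃ z₀ ∈ W, ContinuousOn V W ∧ (∀ z ∈ W, V z ≠ 0 ∧ D.h z = V z ^ 2 * ev a z) ∧ Continuous c ∧
      c 1 = 1 ∧ (∀ s z, ev a (sgm z₀ (s ^ 2) z) = c s ^ 2 * ev a z) ∧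
      ((∀ i, ¬A.Meets (.inl i) W) → a = (1, 0)) := by
  classical
  obtain ⟨r, hr, hb⟩ := ex_Bl A hK h
  obtain ⟨T, U, cU, a, b⟩ := A.fac r hr
  by_cases e : ∃ i, A.Meets (.inl i) W
  · obtain ⟨i, z₀, h0, e⟩ := e
    obtain ⟨V, v1, v2⟩ := ex_sqrt hW (g := fun z => U z * ∏ j ∈ T.erase i, ev (A.fm (.inl j)) z)
      ((cU.mono hb).mul (by fun_prop)) fun z hz => mul_ne_zero (a z (hb hz)).1
        (Finset.prod_ne_zero_iff.2 fun j hj f => Finset.ne_of_mem_erase hj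
          (Sum.inl_injective (one _ _ ⟨z, hz, f⟩ ⟨z₀, h0, e⟩)))
    exact ⟨V, A.fm (.inl i), id, z₀, h0, v1, fun z hz => ⟨(v2 z hz).1, by
      rw [(v2 z hz).2, mul_assoc, Finset.prod_erase_mul _ _ (b i ⟨z₀, hb h0, e⟩), (a z (hb hz)).2]⟩,
      continuous_id, rfl, fun s z => by simp [ev_sgm, e], fun f => (f i ⟨z₀, h0, e⟩).elim⟩
  · obtain ⟨V, v1, v2⟩ := ex_sqrt hW (g := D.h) (fun z hz => (D.an z (h hz)).continuousAt
      |>.continuousWithinAt) fun z hz => (a z (hb hz)).2 ▸ mul_ne_zero (a z (hb hz)).1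
        (Finset.prod_ne_zero_iff.2 fun j _ f => e ⟨j, z, hz, f⟩)
    obtain ⟨z₀, h0⟩ := ne
    exact ⟨V, (1, 0), 1, z₀, h0, v1, fun z hz => ⟨(v2 z hz).1, by simp [ev, (v2 z hz).2]⟩,
      continuous_const, rfl, fun s z => by simp [ev], fun _ => rfl⟩

theorem not_S (one : ∀ L L', A.Meets L W → A.Meets L' W → L = L') {z : Cm 2} (hz : z ∈ W) :
    z ∉ D.S := fun s =>
  let ⟨_, _, _, n, a, b⟩ := (A.ver z).1 s
  n (Sum.inl_injective (one _ _ ⟨z, hz, a⟩ ⟨z, hz, b⟩))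

/-- logarithms over a convex set which meets at most one line -/
theorem ex_log (hK : IsCompact W) (h : W ⊆ D.Om) (hW : Convex ℝ W)
    (one : ∀ L L', A.Meets L W → A.Meets L' W → L = L') {g : D.Xh → ℂ}
    (hg : ContinuousOn g (π ⁻¹' W)) (ne : ∀ y ∈ π ⁻¹' W, g y ≠ 0) :
    ∃ L, ContinuousOn L (π ⁻¹' W) ∧ ∀ y ∈ π ⁻¹' W, Complex.exp (L y) = g y := by
  rcases W.eq_empty_or_nonempty with rfl | e
  · exact ⟨0, continuousOn_const, fun _ h => h.elim⟩
  obtain ⟨V, a, c, z₀, h0, v1, v2, c1, c2, c3, -⟩ := ex_nf hK h hW e one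
  let x : I × (π ⁻¹' W : Set D.Xh) → Cm 2 := fun p => sgm z₀ (p.1 ^ 2) (π p.2.1)
  have xc : Continuous x := by unfold x sgm; fun_prop
  have xm : ∀ p, x p ∈ W := fun p =>
    sgm_mem hW h0 p.2.2 ⟨sq_nonneg _, pow_le_one₀ p.1.2.1 p.1.2.2⟩
  let v : I × (π ⁻¹' W : Set D.Xh) → ℂ := fun p => c p.1 * V (x p) / V (π p.2.1) * w p.2.1
  have vc : Continuous v := (((by fun_prop : Continuous fun p : I × (π ⁻¹' W : Set D.Xh) =>
    (c p.1 : ℂ)).mul (v1.comp_continuous xc xm)).div (v1.comp_continuous (by fun_prop)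
      fun p => p.2.2) fun p => (v2 _ p.2.2).1).mul (by fun_prop)
  have dm : ∀ p, (x p, v p) ∈ D.Dom0 := fun p => ⟨h (xm p), not_S one (xm p), by
    have := (v2 _ p.2.2).1
    simp only [v, x, mul_pow, div_pow, w_sq]
    rw [(v2 _ p.2.2).2, (v2 _ (xm p)).2, c3]
    simp only [x]
    field_simp⟩
  refine log_of (F := {y | π y = z₀}) ?_ (H := fun p => pt0 ⟨_, dm p⟩)
    (cont_pt0.comp ((xc.prodMk vc).subtype_mk _)) xm (fun y => by simp [x, sgm])
    (fun y => ext0 (not_S one (xm _)) (by simp [x, sgm]) ?_) hg ne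
  · refine Finite.of_finite_image (f := w) ((Polynomial.nthRoots 2 (D.h z₀)).finite_toSet.subset ?_)
      fun y a y' b e => ext0 (a ▸ not_S one h0) (a.trans b.symm) e
    rintro _ ⟨y, rfl, rfl⟩
    exact (Polynomial.mem_nthRoots two_pos).2 (w_sq y)
  · have := (v2 _ y.2).1
    simp [v, x, sgm, c2, this]

theorem glue : GLUE := by
  classical
  rintro D A W₁ W₂ k1 k2 s1 s2 cv one ⟨f, u, t⟩ ⟨f', u', t'⟩
  obtain ⟨q, q1, q2⟩ := ex_quot t t'
  obtain ⟨L, l1, l2⟩ := ex_log (k1.inter k2) (inter_subset_left.trans s1) cv one q1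
    fun y a => (q2 y a).1
  have c1 : IsClosed (π ⁻¹' W₁ : Set D.Xh) := k1.isClosed.preimage cont_π
  have c2 : IsClosed (π ⁻¹' W₂ : Set D.Xh) := k2.isClosed.preimage cont_π
  obtain ⟨G, g1, g2⟩ := tz (isCompact_pre k2 s2) c1 (l1.mono fun y a => ⟨a.2, a.1⟩)
  have g3 : ∀ y, π y ∈ W₁ → π y ∈ W₂ → Complex.exp (G y) = q y := fun y a b => by
    rw [g2 y ⟨b, a⟩, l2 y ⟨a, b⟩]
  have key : ∀ {O : Set D.Xh} {p p' : D.Xh → ℂ}, ContinuousOn p (π ⁻¹' W₁ ∩ O) →
      ContinuousOn p' (π ⁻¹' W₂ ∩ O) → (∀ y, π y ∈ W₁ ∩ W₂ → y ∈ O → p y = p' y * q y) →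
      ContinuousOn (fun y => if π y ∈ W₁ then p y else p' y * Complex.exp (G y))
        (π ⁻¹' (W₁ ∪ W₂) ∩ O) := fun a b c => cont_union c1 c2 (a.congr fun y h => if_pos h.1)
    ((b.mul (g1.mono inter_subset_left).cexp).congr fun y h => by
      beta_reduce
      split_ifs with e
      · rw [Pi.mul_apply, g3 y e h.1, c y ⟨e, h.1⟩ h.2]
      · rfl)
  refine ⟨fun y => if π y ∈ W₁ then f y else f' y * Complex.exp (G y),
    fun α y => if π y ∈ W₁ then u α y else u' α y * Complex.exp (G y), ?_, fun y a b => ?_,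
    fun α => key (t.ucont α) (t'.ucont α) fun y a => (q2 y a).2.2 α, fun α y a b => ?_,
    fun α y a b => ?_⟩
  · simpa only [inter_univ] using key (O := univ) (t.cont.mono inter_subset_left)
      (t'.cont.mono inter_subset_left) fun y a _ => (q2 y a).2.1
  all_goals split_ifs with e
  · exact t.ne y e b
  · exact mul_ne_zero (t'.ne y (a.resolve_left e) b) (Complex.exp_ne_zero _)
  · exact t.une α y e b
  · exact mul_ne_zero (t'.une α y (a.resolve_left e) b) (Complex.exp_ne_zero _)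
  · exact t.eq α y e b
  · rw [t'.eq α y (a.resolve_left e) b, mul_right_comm]

theorem loc : LOC := by
  classical
  intro D A W hK h hW one
  by_cases e : ∃ α, A.Meets (.inr α) W
  swap
  · have n : ∀ α (y : D.Xh), π y ∈ W → ev (A.fm (.inr α)) (π y) ≠ 0 := fun α y a b => e ⟨α, _, a, b⟩
    exact ⟨1, fun α y => (ev (A.fm (.inr α)) (π y))⁻¹, continuousOn_const, fun _ _ _ => one_ne_zero,
      fun α => ContinuousOn.inv₀ (by fun_prop) fun y a => n α y a.1,
      fun α y a _ => inv_ne_zero (n α y a), fun α y a _ => (inv_mul_cancel₀ (n α y a)).symm⟩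
  obtain ⟨α, z₀, h0, e⟩ := e
  obtain ⟨V₀, a, -, -, -, v1, v2, -, -, -, rfl⟩ : ∃ (V : Cm 2 → ℂ) (a : Af) (c : ℝ → ℝ),
      ∃ z₀ ∈ W, ContinuousOn V W ∧ (∀ z ∈ W, V z ≠ 0 ∧ D.h z = V z ^ 2 * ev a z) ∧ Continuous c ∧
      c 1 = 1 ∧ (∀ s z, ev a (sgm z₀ (s ^ 2) z) = c s ^ 2 * ev a z) ∧ a = (1, 0) := by
    obtain ⟨V, a, c, z, b1, b2, b3, b4, b5, b6, b7⟩ := ex_nf hK h hW ⟨z₀, h0⟩ one
    exact ⟨V, a, c, z, b1, b2, b3, b4, b5, b6, b7 fun i f => by simpa using one _ _ f ⟨z₀, h0, e⟩⟩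
  simp only [ev, ContinuousLinearMap.zero_apply, add_zero, mul_one] at v2
  obtain ⟨V, v1, v2, v3⟩ : ∃ V, ContinuousOn V W ∧ (∀ z ∈ W, V z ≠ 0 ∧ D.h z = V z ^ 2) ∧
      V z₀ = A.sd α z₀ := by
    rcases sq_eq_sq_iff_eq_or_eq_neg.1 ((A.sd_sq α z₀ (h h0) e).trans (v2 z₀ h0).2) with f | f
    · exact ⟨V₀, v1, v2, f.symm⟩
    · exact ⟨-V₀, v1.neg, fun z a => by simpa using v2 z a, f.symm⟩
  have v4 : EqOn (A.sd α) V (W ∩ {z | ev (A.fm (.inr α)) z = 0}) :=
    (hW.inter fun x a y b s t _ _ c => by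
      have := ev_sgm (A.fm (.inr α)) x y t
      rw [a, b, mul_zero, mul_zero, add_zero, sgm] at this
      rwa [show s • x + t • y = x + t • (y - x) by
        rw [show s = 1 - t by linarith]; module]).isPreconnected.eq_of_sq_eq
    ((A.sd_cont α).mono fun z a => ⟨h a.1, a.2⟩) (v1.mono inter_subset_left)
    (fun z a => (A.sd_sq α z (h a.1) a.2).trans (v2 z a.1).2) (fun a => (v2 _ a.1).1) ⟨h0, e⟩
    v3.symm
  let l : D.Xh → ℂ := fun y => ev (A.fm (.inr α)) (π y)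
  let s : D.Xh → ℂ := fun y => (1 + w y / V (π y)) / 2
  have cs : ContinuousOn s (π ⁻¹' W) := (continuousOn_const.add (cont_w.continuousOn.div
    (v1.comp cont_π.continuousOn fun _ a => a) fun y a => (v2 _ a).1)).div_const 2
  have cl : Continuous l := by fun_prop
  have s1 : ∀ y, π y ∈ W → w y = V (π y) → s y = 1 := fun y a b => by
    simp only [s, b, div_self (v2 _ a).1]; norm_num
  have s2 : ∀ y, π y ∈ W → w y = V (π y) ∧ s y = 1 ∨ s y = 0 := fun y a =>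
    (sq_eq_sq_iff_eq_or_eq_neg.1 ((w_sq y).trans (v2 _ a).2)).imp (fun b => ⟨b, s1 y a b⟩) fun b => by
      simp only [s, b, neg_div, div_self (v2 _ a).1]; norm_num
  have f1 : ∀ y, π y ∈ W → y ∉ A.D1 α → s y * l y + (1 - s y) ≠ 0 := fun y a b => by
    rcases s2 y a with ⟨c, d⟩ | d
    · simpa [d] using fun z => b ⟨z, c.trans (v4 ⟨a, z⟩).symm⟩
    · simp [d]
  have f2 : ∀ y, π y ∈ W → y ∈ A.O α → (1 - s y) * l y + s y ≠ 0 := fun y a b => by
    rcases s2 y a with ⟨c, d⟩ | d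
    · simp [d]
    · have : l y ≠ 0 := fun z => zero_ne_one (d.symm.trans (s1 y a ((b α z).2.trans (v4 ⟨a, z⟩))))
      simpa [d] using this
  have n : ∀ β, β ≠ α → ∀ y : D.Xh, π y ∈ W → ev (A.fm (.inr β)) (π y) ≠ 0 := fun β c y a b =>
    c (Sum.inr_injective (one _ _ ⟨_, a, b⟩ ⟨z₀, h0, e⟩))
  have cf : ContinuousOn (fun y => s y * l y + (1 - s y)) (π ⁻¹' W) :=
    (cs.mul cl.continuousOn).add (continuousOn_const.sub cs)
  refine ⟨fun y => s y * l y + (1 - s y), fun β y => if β = α then ((1 - s y) * l y + s y)⁻¹ else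
    (s y * l y + (1 - s y)) / ev (A.fm (.inr β)) (π y), cf, fun y a b => f1 y a (b α),
    fun β => ?_, fun β y a b => ?_, fun β y a b => ?_⟩
  all_goals split_ifs with c
  · subst c
    exact ((((continuousOn_const.sub cs).mul cl.continuousOn).add cs).mono inter_subset_left).inv₀
      fun y a => f2 y a.1 a.2
  · exact (cf.mono inter_subset_left).div (by fun_prop) fun y a => n β c y a.1
  · exact inv_ne_zero (f2 y a (c ▸ b))
  · exact div_ne_zero (f1 y a fun d => c (b α d.1).1.symm) (n β c y a)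
  · subst c
    have := f2 y a b
    rw [eq_inv_mul_iff_mul_eq₀ this]
    rcases s2 y a with ⟨-, d⟩ | d <;> simp [d, l]
  · rw [div_mul_cancel₀ _ (n β c y a)]

end Vale.Agent.P300LO
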