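import Vale.Agent.P300LG.Defs

/-!
# P300LO: the blocks of the forest induction
-/

open Set
open Vale.Agent.P272.K (Cm)
open Vale.Agent.P300LX Vale.Agent.P300LG

namespace Vale.Agent.P300LO

/-- `O(D1)` is trivial over `W` -/
def Tv {D : Dat} (A : Arr D) (W : Set (Cm 2)) : Prop := ∃ f u, A.Triv W f u

/-- one step of the induction -/
def STEP : Prop :=
  ∀ (D : Dat) (A : Arr D) (I : Type) [Finite I] (B : I → Set (Cm 2)) (r : ℝ), r < A.ε →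
    (∀ i, IsCompact (B i) ∧ Convex ℝ (B i) ∧ B i ⊆ D.Om) →
    (∀ i j, i ≠ j → Disjoint (B i) (B j)) →
    (∀ x, nq x = r → (∀ i, x ∉ interior (B i)) → x ∉ D.S ∧ ∃ t, nq t < r ∧
      (∀ L, ev (A.fm L) x = 0 → ev (A.fm L) t = 0) ∧ ∀ i, x ∈ B i → t ∈ B i) →
    ∃ η₀ > 0, ∀ η, 0 < η → η ≤ η₀ → Tv A (Bl (r - η) ∪ ⋃ i, B i) → Tv A (Bl (r + η) ∪ ⋃ i, B i)

/-- gluing along a convex set which meets at most one line -/
def GLUE : Prop :=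
  ∀ (D : Dat) (A : Arr D) (W₁ W₂ : Set (Cm 2)), IsCompact W₁ → IsCompact W₂ → W₁ ⊆ D.Om →
    W₂ ⊆ D.Om → Convex ℝ (W₁ ∩ W₂) →
    (∀ L L', A.Meets L (W₁ ∩ W₂) → A.Meets L' (W₁ ∩ W₂) → L = L') →
    Tv A W₁ → Tv A W₂ → Tv A (W₁ ∪ W₂)

/-- convex sets which meet at most one line -/
def LOC : Prop :=
  ∀ (D : Dat) (A : Arr D) (W : Set (Cm 2)), IsCompact W → W ⊆ D.Om → Convex ℝ W →
    (∀ L L', A.Meets L W → A.Meets L' W → L = L') → Tv A W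

end Vale.Agent.P300LO
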