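import Vale.Agent.P300LO.Glue

/-!
# P300LO: the forest induction
-/

set_option linter.all false

open Set Filter Topology Function Metric
open Vale.Agent.P272.K (Cm)
open Vale.Agent.P300LX Vale.Agent.P300LX.Dat Vale.Agent.P300LG

noncomputable section

namespace Vale.Agent.P300LO

theorem nq_nonneg (z : Cm 2) : 0 ≤ nq z := by unfold nq; positivity

theorem cpt_Bl (r : ℝ) : IsCompact (Bl r) :=
  (isCompact_closedBall (0 : Cm 2) √r).of_isClosed_subset (isClosed_le cont_nq continuous_const)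
    fun z (h : nq z ≤ r) => mem_closedBall_zero_iff.2 ((pi_norm_le_iff_of_nonneg r.sqrt_nonneg).2
      fun i => Real.le_sqrt_of_sq_le (by
        unfold nq at h
        fin_cases i
        · exact le_trans (le_add_of_nonneg_right (sq_nonneg _)) h
        · exact le_trans (le_add_of_nonneg_left (sq_nonneg _)) h))

theorem cvx_Bl (r : ℝ) : Convex ℝ (Bl r) := by
  have k : ∀ i : Fin 2, ConvexOn ℝ univ fun z : Cm 2 => ‖z i‖ ^ 2 := fun i =>
    (convexOn_univ_norm.comp_linearMap (LinearMap.proj (R := ℝ) (φ := fun _ : Fin 2 => ℂ) i)).pow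
      (fun _ _ => norm_nonneg _) 2
  have := ((k 0).add (k 1)).convex_le r
  simp only [mem_univ, true_and] at this
  exact this

theorem nq_mid {x y : Cm 2} (h : x ≠ y) (e : nq x = nq y) : nq (sgm x (1 / 2) y) < nq y := by
  have k : ∀ i, ‖sgm x (1 / 2) y i‖ ^ 2 = (‖x i‖ ^ 2 + ‖y i‖ ^ 2) / 2 - ‖x i - y i‖ ^ 2 / 4 :=
    fun i => by
      simp only [sgm, Pi.add_apply, Pi.smul_apply, Pi.sub_apply, Complex.sq_norm,
        Complex.normSq_apply, Complex.add_re, Complex.add_im, Complex.smul_re, Complex.smul_im,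
        Complex.sub_re, Complex.sub_im, smul_eq_mul]
      ring
  obtain ⟨i, hi⟩ := Function.ne_iff.1 h
  have p := pow_pos (norm_pos_iff.2 (sub_ne_zero.2 hi)) 2
  unfold nq at e ⊢
  rw [k, k]
  fin_cases i
  · simp only [Fin.zero_eta] at p
    linarith [sq_nonneg ‖x 1 - y 1‖]
  · simp only [Fin.mk_one] at p
    linarith [sq_nonneg ‖x 0 - y 0‖]

variable {D : Dat} {A : Arr D}

theorem Bl_sub {r : ℝ} (h : r < A.ε) : Bl r ⊆ D.Om := fun _ a => (mem_Om A).2 (lt_of_le_of_lt a h)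

theorem line_eq {x : Cm 2} (h : x ∈ D.Om) (s : x ∉ D.S) {L L' : A.ι ⊕ A.κ} (a : ev (A.fm L) x = 0)
    (b : ev (A.fm L') x = 0) : L = L' := by_contra fun e => by
  rcases L with i | α
  · rcases L' with j | β
    · exact s ((A.ver x).2 ⟨h, i, j, fun f => e (congrArg _ f), a, b⟩)
    · exact A.dis β _ e x h b a
  · exact A.dis α _ (Ne.symm e) x h a b

theorem ev_line {x : Cm 2} (h : x ∈ D.Om) :
    ∀ᶠ z in 𝓝 x, ∀ L, ev (A.fm L) z = 0 → ev (A.fm L) x = 0 := by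
  obtain ⟨r, a, b⟩ := exists_between ((mem_Om A).1 h)
  filter_upwards [(isOpen_lt cont_nq continuous_const).mem_nhds a,
    (eventually_all_finite (A.fin r b)).2 fun L _ => show ∀ᶠ z in 𝓝 x,
      ev (A.fm L) z = 0 → ev (A.fm L) x = 0 from (em _).elim (fun e => .of_forall fun _ _ => e)
      fun e => ((cont_ev _).continuousAt.eventually_ne e).mono fun _ c d => (c d).elim]
    with z c d L e using d L ⟨z, LT.lt.le (a := nq z) c, e⟩ e

theorem fin_S {r : ℝ} (h : r < A.ε) : (D.S ∩ Bl r).Finite := by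
  obtain ⟨t, -, b⟩ := (cpt_Bl r).elim_nhds_subcover _ fun x a => D.disc x (Bl_sub h a)
  refine t.finite_toSet.subset fun x a => ?_
  obtain ⟨y, c, d⟩ := mem_iUnion₂.1 (b a.2)
  exact (d a.1 : x = y) ▸ c

/-- adding blocks -/
theorem tv_add {I : Type} [Finite I] {B : I → Set (Cm 2)} {s : ℝ} (hs : s < A.ε)
    (hB : ∀ i, IsCompact (B i) ∧ Convex ℝ (B i) ∧ B i ⊆ D.Om)
    (dj : ∀ i j, i ≠ j → Disjoint (B i) (B j)) (T : Set I) (h : ∀ i, i ∉ T → Tv A (B i) ∧
      ∀ L L', A.Meets L (B i ∩ Bl s) → A.Meets L' (B i ∩ Bl s) → L = L')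
    (t : Tv A (Bl s ∪ ⋃ i ∈ T, B i)) : Tv A (Bl s ∪ ⋃ i, B i) := by
  have key : ∀ U : Set I, Tv A (Bl s ∪ ⋃ i ∈ T ∪ U, B i) := fun U => by
    induction U, U.toFinite using Set.Finite.induction_on with
    | empty => rwa [union_empty]
    | @insert i U _ _ ih =>
    by_cases e : i ∈ T ∪ U
    · rwa [union_insert, insert_eq_of_mem e]
    have f : (Bl s ∪ ⋃ j ∈ T ∪ U, B j) ∩ B i = B i ∩ Bl s := by
      rw [union_inter_distrib_right, inter_comm, (disjoint_iUnion₂_left.2 fun j a =>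
        dj j i fun c => e (c ▸ a)).inter_eq, union_empty]
    have g := h i fun c => e (.inl c)
    rw [union_insert, biUnion_insert, union_comm (B i), ← union_assoc]
    exact glue D A _ _ ((cpt_Bl s).union ((toFinite _).isCompact_biUnion fun j _ => (hB j).1))
      (hB i).1 (union_subset (Bl_sub hs) (iUnion₂_subset fun j _ => (hB j).2.2)) (hB i).2.2
      (f ▸ (hB i).2.1.inter (cvx_Bl s)) (f ▸ g.2) ih g.1
  simpa only [union_univ, biUnion_univ] using key univ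

variable {C : Type} {K : C → Set (Cm 2)} {a : C → ℝ}

theorem for_step (st : STEP) (F : A.Forest K a) (tK : ∀ c, Tv A (K c)) {Fs : Set C}
    (fin : Fs.Finite) {r : ℝ} (hr : r < A.ε)
    (hF : ∀ p ∈ D.S, nq p = r → ∃ c ∈ Fs, p ∈ interior (K c)) :
    ∃ η > 0, Tv A (Bl (r - η) ∪ ⋃ c ∈ {c ∈ Fs | a c < r - η}, K c) →
      Tv A (Bl (r + η) ∪ ⋃ c ∈ {c ∈ Fs | a c < r + η}, K c) := by
  let J := {c // c ∈ Fs ∧ a c ≤ r}
  haveI : Finite J := (fin.subset fun c (h : c ∈ Fs ∧ a c ≤ r) => h.1).to_subtype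
  have om : ∀ x, nq x = r → x ∈ D.Om := fun x e => Bl_sub hr e.le
  have cA : ∀ x, nq x = r → (∀ c : J, x ∉ interior (K c)) → x ∉ D.S := fun x e h s => by
    obtain ⟨c, c1, c2⟩ := hF x s e
    obtain ⟨-, i, j, n, b, d⟩ := (A.ver x).1 s
    rcases le_total (a c) r with f | f
    · exact h ⟨c, c1, f⟩ c2
    · have m : x ∈ K c ∩ Bl (a c) := ⟨interior_subset c2, e.trans_le f⟩
      exact n (Sum.inl_injective (F.one c _ _ ⟨x, m, b⟩ ⟨x, m, d⟩))
  have cC : ∀ x, nq x = r → (∀ c : J, x ∉ interior (K c)) → ∀ c : J, x ∈ K c →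
      ∃ t ∈ K c, nq t < r ∧ ∀ L, ev (A.fm L) x = 0 → ev (A.fm L) t = 0 := fun x e h c m => by
    have mx : max (a c) (nq x) = r := by rw [e, max_eq_right c.2.2]
    by_cases b : ∃ L, ev (A.fm L) x = 0
    · obtain ⟨L, b⟩ := b
      obtain ⟨t, t1, t2, t3⟩ := F.deep c L ⟨x, m, b⟩
      exact ⟨t, t1, mx ▸ t3 x (om x e) b (h c), fun L' d =>
        line_eq (om x e) (cA x e h) b d ▸ t2⟩
    · obtain ⟨t, t1, t3⟩ := F.low c
      exact ⟨t, t1, mx ▸ t3 x (om x e) (h c), fun L d => (b ⟨L, d⟩).elim⟩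
  have mid : ∀ x y : Cm 2, ∀ L, ev (A.fm L) x = 0 → ev (A.fm L) y = 0 →
      ev (A.fm L) (sgm x (1 / 2) y) = 0 := fun x y L b c => by rw [ev_sgm, b, c]; simp
  let X : Set (Cm 2) := {x | nq x = r ∧ (∀ c : J, x ∉ interior (K c)) ∧
    ¬∃ t, nq t < r ∧ ∀ L, ev (A.fm L) x = 0 → ev (A.fm L) t = 0}
  have fX : X.Finite := Finite.of_finite_image (f := fun x => {L | ev (A.fm L) x = 0})
    ((A.fin r hr).finite_subsets.subset (by
      rintro _ ⟨x, h, rfl⟩ L e
      exact ⟨x, h.1.le, e⟩)) fun x h y k e => by_contra fun n => k.2.2 ⟨_,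
        k.1 ▸ nq_mid n (h.1.trans k.1.symm), fun L b => mid x y L ((Set.ext_iff.1 e L).2 b) b⟩
  haveI : Finite X := fX.to_subtype
  have e1 : ∀ᶠ δ in 𝓝 (0 : ℝ), ∀ x : X, closedBall x.1 δ ⊆ {z | z ∈ D.Om ∧ (∀ c : J, z ∉ K c) ∧
      ∀ L, ev (A.fm L) z = 0 → ev (A.fm L) x = 0} := eventually_all.2 fun x =>
    eventually_closedBall_subset (Eventually.and (D.op.mem_nhds (om _ x.2.1)) (Eventually.and
      (eventually_all.2 fun c => (F.cpt c).isClosed.isOpen_compl.mem_nhds fun m =>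
        x.2.2.2 ((cC _ x.2.1 x.2.2.1 c m).imp fun _ h => h.2)) (ev_line (om _ x.2.1))))
  have e2 : ∀ᶠ δ in 𝓝 (0 : ℝ), ∀ x y : X, x ≠ y → δ + δ < dist x.1 y.1 :=
    eventually_all.2 fun x => eventually_all.2 fun y => (em (x = y)).elim
      (fun e => .of_forall fun _ n => (n e).elim) fun e => (((continuous_id.add
        continuous_id).tendsto' 0 0 (add_zero _)).eventually (gt_mem_nhds (dist_pos.2
          (Subtype.coe_ne_coe.2 e)))).mono fun _ h _ => h
  obtain ⟨δ, ⟨d1, d2⟩, d0⟩ := (((e1.and e2).filter_mono nhdsWithin_le_nhds).and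
    (self_mem_nhdsWithin (s := Ioi 0))).exists
  let B : J ⊕ X → Set (Cm 2) := Sum.elim (fun c => K c) fun x => closedBall x.1 δ
  have hB : ∀ i, IsCompact (B i) ∧ Convex ℝ (B i) ∧ B i ⊆ D.Om := by
    rintro (c | x)
    · exact ⟨F.cpt _, F.cvx _, F.sub _⟩
    · exact ⟨isCompact_closedBall _ _, convex_closedBall _ _, fun z h => (d1 x h).1⟩
  have dj : ∀ i j, i ≠ j → Disjoint (B i) (B j) := by
    rintro (c | x) (c' | x') n
    · exact F.disj _ _ fun e => n (congrArg _ (Subtype.ext e))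
    · exact disjoint_right.2 fun z h => (d1 x' h).2.1 c
    · exact disjoint_left.2 fun z h => (d1 x h).2.1 c'
    · exact closedBall_disjoint_closedBall (d2 x x' fun e => n (congrArg _ e))
  obtain ⟨η₀, p0, hη⟩ := st D A _ B r hr hB dj fun x e h => by
    have h' : ∀ c : J, x ∉ interior (K c) := fun c => h (.inl c)
    refine ⟨cA x e h', ?_⟩
    by_cases b : ∃ i, x ∈ B i
    · obtain ⟨i, b⟩ := b
      obtain ⟨t, t1, t2⟩ : ∃ t ∈ B i, nq t < r ∧ ∀ L, ev (A.fm L) x = 0 → ev (A.fm L) t = 0 := by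
        rcases i with c | y
        · exact cC x e h' c b
        · exact ⟨_, sgm_mem (convex_closedBall _ _) (mem_closedBall_self (le_of_lt d0)) b
            (s := 1 / 2) ⟨by norm_num, by norm_num⟩, e ▸ nq_mid (fun f => h (.inr y)
            (mem_interior_iff_mem_nhds.2 (f ▸ closedBall_mem_nhds _ d0))) (y.2.1.trans e.symm),
            fun L c => mid _ _ L ((d1 y b).2.2 L c) c⟩
      exact ⟨t, t2.1, t2.2, fun j c => by_contra fun n =>
        disjoint_left.1 (dj i j fun f => n (f ▸ t1)) b c⟩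
    · obtain ⟨t, t2⟩ : ∃ t, nq t < r ∧ ∀ L, ev (A.fm L) x = 0 → ev (A.fm L) t = 0 :=
        by_contra fun n => b ⟨.inr ⟨x, e, h', n⟩, mem_closedBall_self (le_of_lt d0)⟩
      exact ⟨t, t2.1, t2.2, fun j c => (b ⟨j, c⟩).elim⟩
  have e3 : ∀ᶠ η in 𝓝 (0 : ℝ), η < η₀ ∧ ∀ c ∈ Fs, a c < r + η → a c ≤ r := Eventually.and
    (gt_mem_nhds p0) ((eventually_all_finite fin).2 fun c _ => (le_or_gt (a c) r).elim
      (fun e => .of_forall fun _ _ => e) fun e => (((continuous_const_add r).tendsto' 0 r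
        (add_zero _)).eventually (gt_mem_nhds e)).mono fun _ h k => (h.not_gt k).elim)
  obtain ⟨η, ⟨n1, n2⟩, n0⟩ := ((e3.filter_mono nhdsWithin_le_nhds).and
    (self_mem_nhdsWithin (s := Ioi 0))).exists
  refine ⟨η, n0, fun t => (hη η n0 n1.le (tv_add ((sub_lt_self r n0).trans hr) hB dj
    {i | ∃ c : J, i = .inl c ∧ a c < r - η} ?_ (t.mono (union_subset_union_right _ ?_)))).mono
    (union_subset_union_right _ (iUnion₂_subset fun c h =>
      subset_iUnion B (.inl ⟨c, h.1, n2 c h.1 h.2⟩)))⟩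
  · rintro (c | x) n
    · have m : K c ∩ Bl (r - η) ⊆ K c ∩ Bl (a c) := inter_subset_inter_right _ fun z h =>
        le_trans h (not_lt.1 fun f => n ⟨c, rfl, f⟩)
      exact ⟨tK c, fun L L' ⟨z, b, d⟩ ⟨z', b', d'⟩ => F.one c _ _ ⟨z, m b, d⟩ ⟨z', m b', d'⟩⟩
    · have o : ∀ L L', A.Meets L (closedBall x.1 δ) → A.Meets L' (closedBall x.1 δ) → L = L' :=
        fun L L' ⟨z, b, d⟩ ⟨z', b', d'⟩ => line_eq (om _ x.2.1) (cA _ x.2.1 x.2.2.1)
          ((d1 x b).2.2 L d) ((d1 x b').2.2 L' d')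
      exact ⟨loc D A _ (hB (.inr x)).1 (hB (.inr x)).2.2 (hB (.inr x)).2.1 o,
        fun L L' ⟨z, b, d⟩ ⟨z', b', d'⟩ => o _ _ ⟨z, b.1, d⟩ ⟨z', b'.1, d'⟩⟩
  · refine iUnion₂_subset ?_
    rintro _ ⟨c, rfl, h⟩
    exact subset_biUnion_of_mem (u := K) (s := {c ∈ Fs | a c < r - η}) ⟨c.2.1, h⟩

/-- **FOR** -/
theorem for_of (st : STEP) : FOR := by
  intro D A C K a F tK R hR
  choose cl hcl using F.ver
  haveI := (fin_S hR).to_subtype
  let Fs := range fun p : ↥(D.S ∩ Bl R) => cl p p.2.1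
  have fin : Fs.Finite := finite_range _
  let G : ℝ → Prop := fun r => Tv A (Bl r ∪ ⋃ c ∈ {c ∈ Fs | a c < r}, K c)
  have mono : ∀ r r', r ≤ r' → G r' → G r := fun r r' h t => t.mono (union_subset_union
    (fun z b => le_trans b h) (biUnion_subset_biUnion_left fun c b => ⟨b.1, b.2.trans_le h⟩))
  have G0 : G (min R (-1)) := by
    have e : Bl (min R (-1)) = ∅ := eq_empty_of_forall_notMem fun z h => by
      linarith [nq_nonneg z, le_trans (a := nq z) h (min_le_right _ _)]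
    haveI := fin.to_subtype
    refine (tv_add (B := fun c : Fs => K c) ((min_le_left _ _).trans_lt hR)
      (fun c => ⟨F.cpt _, F.cvx _, F.sub _⟩) (fun c c' n => F.disj _ _ (Subtype.coe_ne_coe.2 n)) ∅
      (fun c _ => ⟨tK c, fun L L' ⟨z, b, _⟩ => (e ▸ b.2).elim⟩) (by
        simpa only [e, biUnion_empty, empty_union] using tv_empty)).mono
      (union_subset_union_right _ (iUnion₂_subset fun c h =>
        subset_iUnion (fun c : Fs => K c) ⟨c, h.1⟩))
  let S := {r | r ≤ R ∧ G r}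
  have ne : S.Nonempty := ⟨_, min_le_left _ _, G0⟩
  have bd : BddAbove S := ⟨R, fun _ h => h.1⟩
  have le : sSup S ≤ R := csSup_le ne fun _ h => h.1
  obtain ⟨η, p, h⟩ := for_step st F tK fin (le.trans_lt hR) fun p s e =>
    ⟨_, ⟨⟨p, s, e.trans_le le⟩, rfl⟩, hcl p s⟩
  obtain ⟨r, r1, r2⟩ := exists_lt_of_lt_csSup ne (sub_lt_self _ p)
  have g : G (sSup S + η) := h (mono _ _ r2.le r1.2)
  exact (mono R _ (not_lt.1 fun f => (le_csSup bd ⟨f.le, g⟩).not_gt (lt_add_of_pos_right _ p))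
    g).mono subset_union_left

end Vale.Agent.P300LO
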